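import Mathlib

/-!
# P147, second formulation: definitions

A random walk in an iid random environment on `ℤ^d`, with the environment given as a family of
random variables on an arbitrary probability space: at the site `x` the probability of the step
`e_i` is `(row x ω).1 i` and that of the step `-e_i` is `(row x ω).2 i`.
-/

open MeasureTheory ProbabilityTheory Filter
open scoped ENNReal

namespace Vale.Agent.P147B

/-- The probability of the displacement `v` in one step, when the step `e_i` has probability `r i`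
and the step `-e_i` has probability `l i`. -/
noncomputable def stepProb {d : ℕ} (r l : Fin d → ℝ) (v : Fin d → ℤ) : ℝ :=
  (∑ i, if v = Pi.single i 1 then r i else 0) + ∑ i, if v = -Pi.single i 1 then l i else 0

/-- `Q` is the annealed law of the walk started at `0`: a probability measure on paths that gives
the paths beginning with `x 0, …, x n` the average over the environment of the product of the
transition probabilities (and `0` if `x 0 ≠ 0`). -/
def IsAnnealedLaw {d : ℕ} {Ω : Type*} [MeasurableSpace Ω] (P : Measure Ω)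
    (row : (Fin d → ℤ) → Ω → (Fin d → ℝ) × (Fin d → ℝ)) (Q : Measure (ℕ → Fin d → ℤ)) : Prop :=
  IsProbabilityMeasure Q ∧ ∀ (n : ℕ) (x : ℕ → Fin d → ℤ),
    Q {X | ∀ k ≤ n, X k = x k} =
      if x 0 = 0 then ∫⁻ ω, ∏ k ∈ Finset.range n,
        ENNReal.ofReal (stepProb (row (x k) ω).1 (row (x k) ω).2 (x (k + 1) - x k)) ∂P
      else 0

/-- The random row `q = (r, l)` is random along the `i`-th axis: the pair `(r i, l i)` is
arbitrary, and the rest of the mass, `1 - r i - l i`, is divided among the other steps in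
non-random proportions. -/
def AlongAxis {d : ℕ} {Ω : Type*} [MeasurableSpace Ω] (P : Measure Ω)
    (q : Ω → (Fin d → ℝ) × (Fin d → ℝ)) (i : Fin d) : Prop :=
  ∃ a b : Fin d → ℝ, ∀ᵐ ω ∂P, ∀ j, j ≠ i →
    (q ω).1 j = a j * (1 - (q ω).1 i - (q ω).2 i) ∧
    (q ω).2 j = b j * (1 - (q ω).1 i - (q ω).2 i)

/-- The random row `q = (r, l)` is random along the diagonal `e_i - e_j`: the sums `r i + r j` and
`l i + l j` and all the other entries are non-random, and the division of the two sums is
arbitrary. -/
def AlongDiagonal {d : ℕ} {Ω : Type*} [MeasurableSpace Ω] (P : Measure Ω)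
    (q : Ω → (Fin d → ℝ) × (Fin d → ℝ)) (i j : Fin d) : Prop :=
  i ≠ j ∧ ∃ (s t : ℝ) (a b : Fin d → ℝ), ∀ᵐ ω ∂P,
    (q ω).1 i + (q ω).1 j = s ∧ (q ω).2 i + (q ω).2 j = t ∧
    ∀ k, k ≠ i → k ≠ j → (q ω).1 k = a k ∧ (q ω).2 k = b k

/-- The random row `q = (r, l)` is random along the diagonal `e_i + e_j`: the sums `r i + l j` and
`l i + r j` and all the other entries are non-random, and the division of the two sums is
arbitrary. -/
def AlongAntidiagonal {d : ℕ} {Ω : Type*} [MeasurableSpace Ω] (P : Measure Ω)
    (q : Ω → (Fin d → ℝ) × (Fin d → ℝ)) (i j : Fin d) : Prop :=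
  i ≠ j ∧ ∃ (s t : ℝ) (a b : Fin d → ℝ), ∀ᵐ ω ∂P,
    (q ω).1 i + (q ω).2 j = s ∧ (q ω).2 i + (q ω).1 j = t ∧
    ∀ k, k ≠ i → k ≠ j → (q ω).1 k = a k ∧ (q ω).2 k = b k

end Vale.Agent.P147B
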