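import Vale.Agent.Lib.P147B.Line
import Vale.Agent.Lib.P147B.Defs

/-!
# P147, second formulation: the bridge
-/

open MeasureTheory ProbabilityTheory Filter
open scoped ENNReal

namespace Vale.Agent.P147B

open Vale.Agent.P147

variable {d : ℕ}

/-- the valid pairs -/
def valid (d : ℕ) : Set ((Fin d → ℝ) × (Fin d → ℝ)) :=
  {q | (∀ i, 0 ≤ q.1 i ∧ 0 ≤ q.2 i) ∧ ∑ i, (q.1 i + q.2 i) = 1}

theorem measurableSet_valid : MeasurableSet (valid d) := by
  have h1 : valid d = (⋂ i, ({q : (Fin d → ℝ) × (Fin d → ℝ) | 0 ≤ q.1 i} ∩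
      {q : (Fin d → ℝ) × (Fin d → ℝ) | 0 ≤ q.2 i})) ∩
      {q : (Fin d → ℝ) × (Fin d → ℝ) | ∑ i, (q.1 i + q.2 i) = 1} := by
    ext q
    simp [valid]
  rw [h1]
  refine MeasurableSet.inter (MeasurableSet.iInter fun i => MeasurableSet.inter ?_ ?_) ?_
  · exact measurableSet_le measurable_const (by fun_prop)
  · exact measurableSet_le measurable_const (by fun_prop)
  · exact measurableSet_eq_fun (by fun_prop) measurable_const

open Classical in
/-- turning a pair of vectors into a row -/
noncomputable def toRow (p0 : Row d) (q : (Fin d → ℝ) × (Fin d → ℝ)) : Row d :=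
  ⟨fun e => if q ∈ valid d then (if e.2 then q.1 e.1 else q.2 e.1) else p0.1 e, by
    by_cases h : q ∈ valid d
    · simp only [if_pos h]
      refine ⟨fun e => ?_, ?_⟩
      · show 0 ≤ (if e.2 then q.1 e.1 else q.2 e.1)
        split_ifs
        · exact (h.1 e.1).1
        · exact (h.1 e.1).2
      · rw [Fintype.sum_prod_type]
        simpa only [Fintype.sum_bool, if_true, Bool.false_eq_true, if_false] using h.2
    · simp only [if_neg h]
      exact p0.2⟩

open Classical in
theorem toRow_apply (p0 : Row d) {q : (Fin d → ℝ) × (Fin d → ℝ)} (h : q ∈ valid d) (e : Step d) :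
    (toRow p0 q).1 e = if e.2 then q.1 e.1 else q.2 e.1 := by
  show (if q ∈ valid d then (if e.2 then q.1 e.1 else q.2 e.1) else p0.1 e) = _
  rw [if_pos h]

theorem measurable_toRow (p0 : Row d) : Measurable (toRow p0) := by
  refine Measurable.subtype_mk (measurable_pi_lambda _ fun e => ?_)
  refine Measurable.ite measurableSet_valid ?_ measurable_const
  by_cases h : e.2 = true
  · simp only [if_pos h]
    fun_prop
  · simp only [if_neg h]
    fun_prop

open Classical in
/-- transition probabilities -/
theorem stepKernel_eq (p0 : Row d) (ω : Env d) (y z : Fin d → ℤ) (q : (Fin d → ℝ) × (Fin d → ℝ))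
    (hq : q ∈ valid d) (hω : ω y = toRow p0 q) :
    stepKernel ω y {z} = ENNReal.ofReal (stepProb q.1 q.2 (z - y)) := by
  rw [stepKernel_apply, Measure.finsetSum_apply]
  have h1 : ∀ e : Step d, (ENNReal.ofReal ((ω y).1 e) • Measure.dirac (y + stepVec e)) {z} =
      ENNReal.ofReal (if z - y = stepVec e then (ω y).1 e else 0) := by
    intro e
    rw [Measure.smul_apply, Measure.dirac_apply' _ (measurableSet_singleton _), smul_eq_mul]
    by_cases h : z - y = stepVec e
    · have h2 : y + stepVec e ∈ ({z} : Set (Fin d → ℤ)) := by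
        rw [Set.mem_singleton_iff, ← h]; abel
      rw [if_pos h, Set.indicator_of_mem h2, Pi.one_apply, mul_one]
    · have h2 : y + stepVec e ∉ ({z} : Set (Fin d → ℤ)) := by
        rw [Set.mem_singleton_iff]
        intro h3
        exact h (by rw [← h3]; abel)
      rw [if_neg h, Set.indicator_of_notMem h2, mul_zero, ENNReal.ofReal_zero]
  rw [Finset.sum_congr rfl fun e _ => h1 e, ← ENNReal.ofReal_sum_of_nonneg]
  · congr 1
    rw [Fintype.sum_prod_type]
    simp only [Fintype.sum_bool]
    rw [Finset.sum_add_distrib]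
    unfold stepProb
    have h2 : ∀ i : Fin d, stepVec ((i, true) : Step d) = Pi.single i 1 := fun i => rfl
    have h3 : ∀ i : Fin d, stepVec ((i, false) : Step d) = -Pi.single i 1 := by
      intro i
      rw [← Pi.single_neg]
      rfl
    congr 1
    · refine Finset.sum_congr rfl fun i _ => ?_
      rw [h2, hω, toRow_apply p0 hq]
      rfl
    · refine Finset.sum_congr rfl fun i _ => ?_
      rw [h3, hω, toRow_apply p0 hq]
      rfl
  · intro e _
    split_ifs
    · exact row_nonneg _ _
    · exact le_rfl

section Bridge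

set_option linter.unusedSectionVars false

variable {Ω : Type*} [MeasurableSpace Ω] (P : Measure Ω) [IsProbabilityMeasure P]
  (row : (Fin d → ℤ) → Ω → (Fin d → ℝ) × (Fin d → ℝ))

/-- the environment as a point of `Env d` -/
noncomputable def env (p0 : Row d) (ω : Ω) : Env d := fun x => toRow p0 (row x ω)

theorem measurable_env (p0 : Row d) (hm : ∀ x, Measurable (row x)) :
    Measurable (env row p0) :=
  measurable_pi_lambda _ fun x => (measurable_toRow p0).comp (hm x)

/-- the joint law of the environment -/
theorem map_env (p0 : Row d) (hm : ∀ x, Measurable (row x)) (hind : iIndepFun row P)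
    (hid : ∀ x, IdentDistrib (row x) (row 0) P P) :
    P.map (env row p0) =
      Measure.infinitePi fun _ : Fin d → ℤ => P.map (fun ω => toRow p0 (row 0 ω)) := by
  have h1 : iIndepFun (fun x ω => toRow p0 (row x ω)) P :=
    hind.comp (fun _ => toRow p0) fun _ => measurable_toRow p0
  have h2 := h1.map_fun_eq_infinitePi_map fun x => (measurable_toRow p0).comp (hm x)
  have h3 : ∀ x, P.map (fun ω => toRow p0 (row x ω)) = P.map (fun ω => toRow p0 (row 0 ω)) :=
    fun x => ((hid x).comp (measurable_toRow p0)).map_eq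
  refine h2.trans ?_
  congr 1
  funext x
  exact h3 x

/-- the annealed law -/
noncomputable def law (p0 : Row d) : Measure (ℕ → Fin d → ℤ) :=
  (P.map (env row p0)).bind fun ω => quenched ω 0

theorem law_apply (p0 : Row d) {A : Set (ℕ → Fin d → ℤ)} (hA : MeasurableSet A) :
    law P row p0 A = ∫⁻ ω, quenched ω 0 A ∂(P.map (env row p0)) :=
  Measure.bind_apply hA (measurable_quenched 0).aemeasurable

theorem law_isAnnealed (p0 : Row d) (hm : ∀ x, Measurable (row x))
    (hval : ∀ᵐ ω ∂P, ∀ x, row x ω ∈ valid d) : IsAnnealedLaw P row (law P row p0) := by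
  have hpr : IsProbabilityMeasure (P.map (env row p0)) :=
    Measure.isProbabilityMeasure_map (measurable_env row p0 hm).aemeasurable
  refine ⟨⟨?_⟩, fun n x => ?_⟩
  · rw [law_apply P row p0 MeasurableSet.univ]
    simp
  · have hl : ∫⁻ ω, quenched ω 0 {X | ∀ k ≤ n, X k = x k} ∂(P.map (env row p0)) =
        ∫⁻ ω, quenched (env row p0 ω) 0 {X | ∀ k ≤ n, X k = x k} ∂P :=
      lintegral_map ((Measure.measurable_coe (measurableSet_cyl n x)).comp (measurable_quenched 0))
        (measurable_env row p0 hm)
    rw [law_apply P row p0 (measurableSet_cyl n x), hl]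
    by_cases hx : x 0 = 0
    · rw [if_pos hx]
      refine lintegral_congr_ae ?_
      filter_upwards [hval] with ω hω
      rw [quenched_eq_chain, chain_cyl, hx, Measure.dirac_apply_of_mem (Set.mem_singleton _),
        one_mul]
      refine Finset.prod_congr rfl fun k _ => ?_
      exact stepKernel_eq p0 _ _ _ _ (hω (x k)) rfl
    · rw [if_neg hx]
      have h1 : ∀ ω, quenched (env row p0 ω) 0 {X | ∀ i ≤ n, X i = x i} = 0 := by
        intro ω
        rw [quenched_eq_chain, chain_cyl, Measure.dirac_apply' _ (measurableSet_singleton _),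
          Set.indicator_of_notMem (by rw [Set.mem_singleton_iff]; exact Ne.symm hx), zero_mul]
      simp [h1]

/-- uniqueness of the annealed law -/
theorem annealed_unique {Q Q' : Measure (ℕ → Fin d → ℤ)} (h : IsAnnealedLaw P row Q)
    (h' : IsAnnealedLaw P row Q') : Q = Q' := by
  have h1 := h.1
  have h2 := h'.1
  refine path_ext fun n p => ?_
  rw [h.2 n p, h'.2 n p]

/-- the annealed probability of escape -/
theorem law_escape (p0 : Row d) (hm : ∀ x, Measurable (row x)) (hind : iIndepFun row P)
    (hid : ∀ x, IdentDistrib (row x) (row 0) P P)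
    [IsProbabilityMeasure (P.map (fun ω => toRow p0 (row 0 ω)))] (ℓ : Fin d → ℝ) :
    law P row p0 (escape ℓ) = annealed (P.map (fun ω => toRow p0 (row 0 ω))) 0 (escape ℓ) := by
  rw [law_apply P row p0 (measurableSet_escape ℓ), map_env P row p0 hm hind hid]
  rfl

end Bridge

/-- a default row -/
noncomputable def someRow (i : Fin d) : Row d :=
  ⟨Pi.single (i, true) 1, by
    refine ⟨fun e => ?_, ?_⟩
    · rw [Pi.single_apply]
      split_ifs <;> norm_num
    · rw [Finset.sum_pi_single']
      simp⟩

end Vale.Agent.P147B
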