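import Vale.Agent.Lib.P147B.Draw

/-!
# P147, second formulation: the theorem
-/

open MeasureTheory ProbabilityTheory Filter
open scoped ENNReal

namespace Vale.Agent.P147B

open Vale.Agent.P147

theorem final (d : ℕ) (hd : 2 ≤ d) {Ω : Type*} [MeasurableSpace Ω] (P : Measure Ω)
    [IsProbabilityMeasure P] (row : (Fin d → ℤ) → Ω → (Fin d → ℝ) × (Fin d → ℝ))
    (hm : ∀ x, Measurable (row x)) (hind : iIndepFun row P)
    (hid : ∀ x, IdentDistrib (row x) (row 0) P P)
    (hell : ∀ᵐ ω ∂P, (∀ i, 0 < (row 0 ω).1 i ∧ 0 < (row 0 ω).2 i) ∧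
      ∑ i, ((row 0 ω).1 i + (row 0 ω).2 i) = 1)
    (hline : (∃ i, AlongAxis P (row 0) i) ∨ (∃ i j, AlongDiagonal P (row 0) i j) ∨
      ∃ i j, AlongAntidiagonal P (row 0) i j) :
    (∃! Q, IsAnnealedLaw P row Q) ∧
      ∀ Q, IsAnnealedLaw P row Q → ∀ ℓ : Fin d → ℝ,
        Q {X | Tendsto (fun n => ∑ i, ℓ i * (X n i : ℝ)) atTop atTop} = 0 ∨
        Q {X | Tendsto (fun n => ∑ i, ℓ i * (X n i : ℝ)) atTop atTop} = 1 := by
  obtain ⟨p0, -⟩ : ∃ p : Row d, p = someRow ⟨0, by omega⟩ := ⟨_, rfl⟩
  have hval0 : ∀ᵐ ω ∂P, row 0 ω ∈ valid d := by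
    filter_upwards [hell] with ω hω
    exact ⟨fun i => ⟨(hω.1 i).1.le, (hω.1 i).2.le⟩, hω.2⟩
  have hval : ∀ᵐ ω ∂P, ∀ x, row x ω ∈ valid d := by
    rw [ae_all_iff]
    intro x
    exact (hid x).symm.ae_snd (p := fun q => q ∈ valid d) measurableSet_valid hval0
  have hex := law_isAnnealed P row p0 hm hval
  have hmr : Measurable fun ω => toRow p0 (row 0 ω) := (measurable_toRow p0).comp (hm 0)
  have hμ : IsProbabilityMeasure (P.map (fun ω => toRow p0 (row 0 ω))) :=
    Measure.isProbabilityMeasure_map hmr.aemeasurable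
  -- transfer of almost sure properties
  have htr : ∀ {A : Row d → Prop}, MeasurableSet {p | A p} →
      (∀ᵐ ω ∂P, A (toRow p0 (row 0 ω))) → ∀ᵐ p ∂(P.map (fun ω => toRow p0 (row 0 ω))), A p :=
    fun hA h => (ae_map_iff hmr.aemeasurable hA).2 h
  have hev : ∀ e : Step d, Measurable fun p : Row d => p.1 e := fun e =>
    (measurable_pi_apply e).comp measurable_subtype_coe
  have htrue : ∀ q ∈ valid d, ∀ i, (toRow p0 q).1 (i, true) = q.1 i := fun q hq i => by
    rw [toRow_apply p0 hq, if_pos rfl]
  have hfalse : ∀ q ∈ valid d, ∀ i, (toRow p0 q).1 (i, false) = q.2 i := fun q hq i => by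
    rw [toRow_apply p0 hq]
    rfl
  have hell' : ∀ᵐ p ∂(P.map (fun ω => toRow p0 (row 0 ω))), ∀ e : Step d, 0 < p.1 e := by
    rw [ae_all_iff]
    rintro ⟨i, r⟩
    refine htr (measurableSet_lt measurable_const (hev _)) ?_
    filter_upwards [hell, hval0] with ω h1 h2
    cases r
    · rw [hfalse _ h2]
      exact (h1.1 i).2
    · rw [htrue _ h2]
      exact (h1.1 i).1
  have key : ∃ w : Fin d → ℤ, w ≠ 0 ∧
      RandomOnlyAlong (P.map (fun ω => toRow p0 (row 0 ω))) w := by
    rcases hline with ⟨i, a, b, h⟩ | ⟨i, j, hij, s, t, a, b, h⟩ | ⟨i, j, hij, s, t, a, b, h⟩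
    · refine ⟨Pi.single i 1, fun h0 => ?_, line_axis _ i a b ?_⟩
      · have := congrFun h0 i
        simp at this
      · rw [ae_all_iff]
        intro j
        by_cases hji : j = i
        · exact Eventually.of_forall fun p h => absurd hji h
        have h1 : ∀ᵐ p ∂(P.map (fun ω => toRow p0 (row 0 ω))),
            p.1 (j, true) = a j * (1 - p.1 (i, true) - p.1 (i, false)) := by
          refine htr (measurableSet_eq_fun (hev _)
            (((measurable_const.sub (hev _)).sub (hev _)).const_mul _)) ?_
          filter_upwards [h, hval0] with ω h1 h2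
          rw [htrue _ h2, htrue _ h2, hfalse _ h2]
          exact (h1 j hji).1
        have h2 : ∀ᵐ p ∂(P.map (fun ω => toRow p0 (row 0 ω))),
            p.1 (j, false) = b j * (1 - p.1 (i, true) - p.1 (i, false)) := by
          refine htr (measurableSet_eq_fun (hev _)
            (((measurable_const.sub (hev _)).sub (hev _)).const_mul _)) ?_
          filter_upwards [h, hval0] with ω h1 h2
          rw [htrue _ h2, hfalse _ h2, hfalse _ h2]
          exact (h1 j hji).2
        filter_upwards [h1, h2] with p h1 h2 _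
        exact ⟨h1, h2⟩
    all_goals
      have h3 : ∀ k, k ≠ i → k ≠ j → ∀ᵐ p ∂(P.map (fun ω => toRow p0 (row 0 ω))),
          p.1 (k, true) = a k ∧ p.1 (k, false) = b k := by
        intro k hki hkj
        have h1 : ∀ᵐ p ∂(P.map (fun ω => toRow p0 (row 0 ω))), p.1 (k, true) = a k := by
          refine htr (measurableSet_eq_fun (hev _) measurable_const) ?_
          filter_upwards [h, hval0] with ω h1 h2
          rw [htrue _ h2]
          exact (h1.2.2 k hki hkj).1
        have h2 : ∀ᵐ p ∂(P.map (fun ω => toRow p0 (row 0 ω))), p.1 (k, false) = b k := by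
          refine htr (measurableSet_eq_fun (hev _) measurable_const) ?_
          filter_upwards [h, hval0] with ω h1 h2
          rw [hfalse _ h2]
          exact (h1.2.2 k hki hkj).2
        filter_upwards [h1, h2] with p h1 h2
        exact ⟨h1, h2⟩
      have h4 : ∀ᵐ p ∂(P.map (fun ω => toRow p0 (row 0 ω))), ∀ k, k ≠ i → k ≠ j →
          p.1 (k, true) = a k ∧ p.1 (k, false) = b k := by
        rw [ae_all_iff]
        intro k
        by_cases hki : k = i
        · exact Eventually.of_forall fun p h => absurd hki h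
        by_cases hkj : k = j
        · exact Eventually.of_forall fun p _ h => absurd hkj h
        filter_upwards [h3 k hki hkj] with p hp _ _
        exact hp
    · refine ⟨Pi.single i 1 - sg true • Pi.single j 1, fun h0 => ?_,
        line_diag _ i j hij true a b s t ?_⟩
      · have := congrFun h0 i
        rw [Pi.sub_apply, Pi.smul_apply, Pi.single_eq_same, Pi.single_eq_of_ne hij, smul_zero,
          sub_zero] at this
        exact one_ne_zero this
      · have h1 : ∀ᵐ p ∂(P.map (fun ω => toRow p0 (row 0 ω))),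
            p.1 (i, true) + p.1 (j, true) = s := by
          refine htr (measurableSet_eq_fun ((hev _).add (hev _)) measurable_const) ?_
          filter_upwards [h, hval0] with ω h1 h2
          rw [htrue _ h2, htrue _ h2]
          exact h1.1
        have h2 : ∀ᵐ p ∂(P.map (fun ω => toRow p0 (row 0 ω))),
            p.1 (i, false) + p.1 (j, !true) = t := by
          refine htr (measurableSet_eq_fun ((hev _).add (hev _)) measurable_const) ?_
          filter_upwards [h, hval0] with ω h1 h2
          rw [Bool.not_true, hfalse _ h2, hfalse _ h2]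
          exact h1.2.1
        filter_upwards [h1, h2, h4] with p h1 h2 h4
        exact ⟨h1, h2, h4⟩
    · refine ⟨Pi.single i 1 - sg false • Pi.single j 1, fun h0 => ?_,
        line_diag _ i j hij false a b s t ?_⟩
      · have := congrFun h0 i
        rw [Pi.sub_apply, Pi.smul_apply, Pi.single_eq_same, Pi.single_eq_of_ne hij, smul_zero,
          sub_zero] at this
        exact one_ne_zero this
      · have h1 : ∀ᵐ p ∂(P.map (fun ω => toRow p0 (row 0 ω))),
            p.1 (i, true) + p.1 (j, false) = s := by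
          refine htr (measurableSet_eq_fun ((hev _).add (hev _)) measurable_const) ?_
          filter_upwards [h, hval0] with ω h1 h2
          rw [htrue _ h2, hfalse _ h2]
          exact h1.1
        have h2 : ∀ᵐ p ∂(P.map (fun ω => toRow p0 (row 0 ω))),
            p.1 (i, false) + p.1 (j, !false) = t := by
          refine htr (measurableSet_eq_fun ((hev _).add (hev _)) measurable_const) ?_
          filter_upwards [h, hval0] with ω h1 h2
          rw [Bool.not_false, hfalse _ h2, htrue _ h2]
          exact h1.2.1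
        filter_upwards [h1, h2, h4] with p h1 h2 h4
        exact ⟨h1, h2, h4⟩
  obtain ⟨w, hw, hone⟩ := key
  refine ⟨⟨law P row p0, hex, fun Q hQ => annealed_unique P row hQ hex⟩, fun Q hQ ℓ => ?_⟩
  rw [annealed_unique P row hQ hex]
  have hset : {X : ℕ → Fin d → ℤ | Tendsto (fun n => ∑ i, ℓ i * (X n i : ℝ)) atTop atTop} =
      escape ℓ := by
    unfold escape
    simp_rw [mul_comm]
  rw [hset, law_escape P row p0 hm hind hid ℓ]
  exact zero_one _ hd hw hell' hone ℓ

end Vale.Agent.P147B
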