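import Vale.Agent.Lib.P147.Main

/-!
# P147, second formulation: which laws are random only along a line
-/

open MeasureTheory ProbabilityTheory Filter
open scoped ENNReal

namespace Vale.Agent.P147B

open Vale.Agent.P147

variable {d : ℕ}

/-- sign of a step -/
def sg (s : Bool) : ℤ := if s then 1 else -1

theorem sg_inj {s t : Bool} (h : sg s = sg t) : s = t := by
  cases s <;> cases t <;> simp_all [sg]

theorem sg_ne (s : Bool) : sg s ≠ 0 := by
  cases s <;> simp [sg]

theorem sg_not (s : Bool) : sg (!s) = -sg s := by
  cases s <;> simp [sg]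

theorem stepVec_apply (e : Step d) (m : Fin d) :
    stepVec e m = if m = e.1 then sg e.2 else 0 := by
  unfold stepVec
  rw [Pi.single_apply]
  rfl

theorem stepVec_self (e : Step d) : stepVec e e.1 = sg e.2 := by
  rw [stepVec_apply, if_pos rfl]

theorem stepVec_other (e : Step d) {m : Fin d} (h : m ≠ e.1) : stepVec e m = 0 := by
  rw [stepVec_apply, if_neg h]

open Classical in
/-- the sum of a row over all steps -/
theorem row_total (p : Row d) : ∑ i, (p.1 (i, true) + p.1 (i, false)) = 1 := by
  have h := row_sum p
  rw [Fintype.sum_prod_type] at h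
  simpa only [Fintype.sum_bool] using h

open Classical in
/-- case of a coordinate axis -/
theorem line_axis (μ : Measure (Row d)) (i : Fin d) (a b : Fin d → ℝ)
    (h : ∀ᵐ p ∂μ, ∀ j, j ≠ i →
      p.1 (j, true) = a j * (1 - p.1 (i, true) - p.1 (i, false)) ∧
      p.1 (j, false) = b j * (1 - p.1 (i, true) - p.1 (i, false))) :
    RandomOnlyAlong μ (Pi.single i 1) := by
  have hpar : ∀ e : Step d, Par (Pi.single i (1 : ℤ)) (stepVec e) ↔ e.1 = i := by
    intro e
    constructor
    · rintro ⟨k, hk⟩
      by_contra hne
      have h1 := congrFun hk e.1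
      rw [stepVec_self, Pi.smul_apply, Pi.single_apply, if_neg hne, smul_zero] at h1
      exact sg_ne _ h1
    · intro he
      refine ⟨sg e.2, ?_⟩
      funext m
      rw [stepVec_apply, Pi.smul_apply, Pi.single_apply, he]
      split_ifs <;> simp
  refine ⟨fun e => if e.2 then a e.1 else b e.1, ?_⟩
  filter_upwards [h] with p hp e he
  have hei : e.1 ≠ i := fun h => he ((hpar e).2 h)
  have hs1 : (Finset.univ.filter fun f : Step d =>
      Par (Pi.single i (1 : ℤ)) (stepVec f - stepVec e)) = {e} := by
    ext f
    rw [Finset.mem_filter, Finset.mem_singleton]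
    constructor
    · rintro ⟨-, k, hk⟩
      have h1 := congrFun hk e.1
      rw [Pi.sub_apply, stepVec_self, Pi.smul_apply, Pi.single_apply, if_neg hei, smul_zero,
        sub_eq_zero, stepVec_apply] at h1
      by_cases h2 : e.1 = f.1
      · rw [if_pos h2] at h1
        exact Prod.ext h2.symm (sg_inj h1)
      · rw [if_neg h2] at h1
        exact absurd h1.symm (sg_ne _)
    · rintro rfl
      exact ⟨Finset.mem_univ _, 0, by rw [sub_self, zero_smul]⟩
  have hs2 : ∑ f : Step d with ¬ Par (Pi.single i (1 : ℤ)) (stepVec f), p.1 f =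
      1 - p.1 (i, true) - p.1 (i, false) := by
    have h1 := Finset.sum_filter_add_sum_filter_not (Finset.univ : Finset (Step d))
      (fun f => Par (Pi.single i (1 : ℤ)) (stepVec f)) (fun f => p.1 f)
    rw [row_sum p] at h1
    have h2 : (Finset.univ.filter fun f : Step d => Par (Pi.single i (1 : ℤ)) (stepVec f)) =
        {(i, true), (i, false)} := by
      ext f
      rw [Finset.mem_filter, hpar, Finset.mem_insert, Finset.mem_singleton]
      obtain ⟨m, s⟩ := f
      cases s <;> simp
    rw [h2, Finset.sum_pair (by simp)] at h1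
    linarith
  rw [hs1, hs2, Finset.sum_singleton]
  obtain ⟨m, s⟩ := e
  have h3 := hp m hei
  cases s
  · simp only [Bool.false_eq_true, if_false]
    rw [h3.2, mul_comm]
  · simp only [if_true]
    rw [h3.1, mul_comm]

open Classical in
/-- case of a diagonal: `c = 1` or `c = -1` -/
theorem line_diag (μ : Measure (Row d)) (i j : Fin d) (hij : i ≠ j) (u : Bool) (a b : Fin d → ℝ)
    (s t : ℝ)
    (h : ∀ᵐ p ∂μ, p.1 (i, true) + p.1 (j, u) = s ∧ p.1 (i, false) + p.1 (j, !u) = t ∧
      ∀ k, k ≠ i → k ≠ j → p.1 (k, true) = a k ∧ p.1 (k, false) = b k) :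
    RandomOnlyAlong μ (Pi.single i 1 - sg u • Pi.single j 1) := by
  obtain ⟨w, hw⟩ : ∃ w : Fin d → ℤ, w = Pi.single i 1 - sg u • Pi.single j 1 := ⟨_, rfl⟩
  have hwi : w i = 1 := by
    rw [hw, Pi.sub_apply, Pi.smul_apply, Pi.single_eq_same, Pi.single_eq_of_ne hij, smul_zero,
      sub_zero]
  have hwj : w j = -sg u := by
    rw [hw, Pi.sub_apply, Pi.smul_apply, Pi.single_eq_same, Pi.single_eq_of_ne hij.symm,
      smul_eq_mul, mul_one, zero_sub]
  have hwo : ∀ m, m ≠ i → m ≠ j → w m = 0 := by
    intro m h1 h2
    rw [hw, Pi.sub_apply, Pi.smul_apply, Pi.single_eq_of_ne h1, Pi.single_eq_of_ne h2, smul_zero,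
      sub_zero]
  rw [← hw]
  have hsu : sg u = 1 ∨ sg u = -1 := by cases u <;> simp [sg]
  have hpar : ∀ e : Step d, ¬ Par w (stepVec e) := by
    rintro e ⟨k, hk⟩
    have hi := congrFun hk i
    have hj := congrFun hk j
    rw [Pi.smul_apply, hwi, smul_eq_mul, mul_one, stepVec_apply] at hi
    rw [Pi.smul_apply, hwj, smul_eq_mul, stepVec_apply] at hj
    have hne := sg_ne e.2
    by_cases h1 : i = e.1
    · rw [if_pos h1] at hi
      rw [if_neg (fun h2 => hij (h1.trans h2.symm)), ← hi] at hj
      rcases hsu with h3 | h3 <;> rw [h3] at hj <;> omega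
    · rw [if_neg h1] at hi
      by_cases h2 : j = e.1
      · rw [if_pos h2, ← hi, zero_mul] at hj
        exact hne hj
      · have he := congrFun hk e.1
        rw [stepVec_self, Pi.smul_apply, hwo _ (Ne.symm h1) (Ne.symm h2), smul_zero] at he
        exact hne he
  have hall : ∀ p : Row d, ∑ f : Step d with ¬ Par w (stepVec f), p.1 f = 1 := by
    intro p
    rw [Finset.filter_true_of_mem fun f _ => hpar f]
    exact row_sum p
  -- the partner of a step
  have hcl : ∀ r : Bool, ∀ f : Step d, Par w (stepVec f - stepVec ((i, r) : Step d)) ↔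
      f = (i, r) ∨ f = (j, if r then u else !u) := by
    intro r f
    have hsr : sg (if r then u else !u) = sg r * sg u := by
      cases r <;> cases u <;> simp [sg]
    have hrr : sg r = 1 ∨ sg r = -1 := by cases r <;> simp [sg]
    constructor
    · rintro ⟨k, hk⟩
      have hi := congrFun hk i
      have hj := congrFun hk j
      rw [Pi.sub_apply, Pi.smul_apply, hwi, smul_eq_mul, mul_one, stepVec_self (i, r),
        stepVec_apply] at hi
      rw [Pi.sub_apply, Pi.smul_apply, hwj, smul_eq_mul, stepVec_other (i, r) hij.symm,
        stepVec_apply, sub_zero] at hj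
      have hne := sg_ne f.2
      by_cases h1 : i = f.1
      · left
        rw [if_pos h1] at hi
        rw [if_neg (fun h2 => hij (h1.trans h2.symm))] at hj
        have hk0 : k = 0 := by
          rcases hsu with h3 | h3 <;> rw [h3] at hj <;> omega
        rw [hk0, sub_eq_zero] at hi
        exact Prod.ext h1.symm (sg_inj hi)
      · rw [if_neg h1] at hi
        by_cases h2 : j = f.1
        · right
          rw [if_pos h2] at hj
          have h4 : sg f.2 = sg (if r then u else !u) := by
            rw [hj, hsr, ← hi]
            ring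
          exact Prod.ext h2.symm (sg_inj h4)
        · have he := congrFun hk f.1
          rw [Pi.sub_apply, stepVec_self f, Pi.smul_apply, hwo _ (Ne.symm h1) (Ne.symm h2),
            smul_zero, stepVec_other (i, r) (Ne.symm h1), sub_zero] at he
          exact absurd he hne
    · rintro (rfl | rfl)
      · exact ⟨0, by rw [sub_self, zero_smul]⟩
      · refine ⟨-sg r, ?_⟩
        funext m
        rw [Pi.sub_apply, Pi.smul_apply, smul_eq_mul, stepVec_apply, stepVec_apply]
        by_cases h1 : m = i
        · subst h1
          rw [hwi, if_neg hij, if_pos rfl]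
          ring
        · by_cases h2 : m = j
          · subst h2
            rw [hwj, if_pos rfl, if_neg h1, hsr]
            ring
          · rw [hwo m h1 h2, if_neg h2, if_neg h1]
            ring
  have hsymm : ∀ e f : Step d, Par w (stepVec f - stepVec e) → Par w (stepVec e - stepVec f) := by
    rintro e f ⟨k, hk⟩
    exact ⟨-k, by rw [neg_smul, ← hk, neg_sub]⟩
  have htrans : ∀ e f g : Step d, Par w (stepVec f - stepVec e) → Par w (stepVec g - stepVec f) →
      Par w (stepVec g - stepVec e) := by
    rintro e f g ⟨k, hk⟩ ⟨l, hl⟩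
    exact ⟨k + l, by rw [add_smul, ← hk, ← hl]; abel⟩
  refine ⟨fun e => if e.1 = i then (if e.2 then s else t) else
    if e.1 = j then (if e.2 = u then s else t) else if e.2 then a e.1 else b e.1, ?_⟩
  filter_upwards [h] with p hp e _
  rw [hall p, one_mul]
  have hne2 : ∀ r : Bool, ((i, r) : Step d) ≠ (j, if r then u else !u) := fun r h =>
    hij (congrArg Prod.fst h)
  by_cases h1 : e.1 = i
  · rw [if_pos h1]
    obtain ⟨m, r⟩ := e
    obtain rfl : m = i := h1
    have hset : (Finset.univ.filter fun f : Step d =>
        Par w (stepVec f - stepVec ((m, r) : Step d))) = {(m, r), (j, if r then u else !u)} := by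
      ext f
      rw [Finset.mem_filter, hcl, Finset.mem_insert, Finset.mem_singleton]
      simp
    rw [hset, Finset.sum_pair (hne2 r)]
    cases r
    · simpa using hp.2.1
    · simpa using hp.1
  · rw [if_neg h1]
    by_cases h2 : e.1 = j
    · rw [if_pos h2]
      obtain ⟨m, r⟩ := e
      obtain rfl : m = j := h2
      obtain ⟨q, hq⟩ : ∃ q : Bool, (if q then u else !u) = r := by
        cases r <;> cases u
        · exact ⟨true, rfl⟩
        · exact ⟨false, rfl⟩
        · exact ⟨false, rfl⟩
        · exact ⟨true, rfl⟩
      have hq2 : Par w (stepVec ((m, r) : Step d) - stepVec ((i, q) : Step d)) :=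
        (hcl q (m, r)).2 (Or.inr (by rw [hq]))
      have hset : (Finset.univ.filter fun f : Step d =>
          Par w (stepVec f - stepVec ((m, r) : Step d))) = {(i, q), (m, r)} := by
        ext f
        rw [Finset.mem_filter, Finset.mem_insert, Finset.mem_singleton]
        constructor
        · rintro ⟨-, hf⟩
          have h3 := (hcl q f).1 (htrans _ _ _ hq2 hf)
          rwa [hq] at h3
        · rintro (rfl | rfl)
          · exact ⟨Finset.mem_univ _, hsymm _ _ hq2⟩
          · exact ⟨Finset.mem_univ _, 0, by rw [sub_self, zero_smul]⟩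
      rw [hset, Finset.sum_pair (by rw [← hq]; exact hne2 q)]
      cases q
      · have hr : r = !u := by simpa using hq.symm
        subst hr
        rw [if_neg (by simp)]
        exact hp.2.1
      · have hr : r = u := by simpa using hq.symm
        subst hr
        rw [if_pos rfl]
        exact hp.1
    · rw [if_neg h2]
      have hset : (Finset.univ.filter fun f : Step d => Par w (stepVec f - stepVec e)) = {e} := by
        ext f
        rw [Finset.mem_filter, Finset.mem_singleton]
        constructor
        · rintro ⟨-, k, hk⟩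
          have he := congrFun hk e.1
          rw [Pi.sub_apply, stepVec_self e, Pi.smul_apply, hwo _ h1 h2, smul_zero, sub_eq_zero,
            stepVec_apply] at he
          by_cases h3 : e.1 = f.1
          · rw [if_pos h3] at he
            exact Prod.ext h3.symm (sg_inj he)
          · rw [if_neg h3] at he
            exact absurd he.symm (sg_ne _)
        · rintro rfl
          exact ⟨Finset.mem_univ _, 0, by rw [sub_self, zero_smul]⟩
      rw [hset, Finset.sum_singleton]
      obtain ⟨m, r⟩ := e
      have h3 := hp.2.2 m h1 h2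
      cases r
      · simpa using h3.2
      · simpa using h3.1

end Vale.Agent.P147B
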